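import Vale.Agent.Lib.P038.Sat.I.M2_4.S0
import Vale.Agent.Lib.P038.Sat.I.M2_4.S1
import Vale.Agent.Lib.P038.Sat.I.M2_4.S2
import Vale.Agent.Lib.P038.Sat.I.M2_4.S3
import Vale.Agent.Lib.P038.Sat.I.M2_4.S4
import Vale.Agent.Lib.P038.Sat.I.M2_4.S5
import Vale.Agent.Lib.P038.Sat.I.M2_4.S6
import Vale.Agent.Lib.P038.Sat.I.M2_4.S7
import Vale.Agent.Lib.P038.Sat.I.M2_4.S8
import Vale.Agent.Lib.P038.Sat.I.M2_4.S9
import Vale.Agent.Lib.P038.Sat.I.M2_4.S10
import Vale.Agent.Lib.P038.Sat.I.M2_4.S11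
import Vale.Agent.Lib.P038.Sat.I.M2_4.S12
import Vale.Agent.Lib.P038.Sat.I.M2_4.S13
import Vale.Agent.Lib.P038.Sat.I.M2_4.S14
import Vale.Agent.Lib.P038.Sat.I.M2_4.S15
import Vale.Agent.Lib.P038.Sat.I.M2_4.S16
import Vale.Agent.Lib.P038.Sat.I.M2_4.S17
import Vale.Agent.Lib.P038.Sat.I.M2_4.S18
import Vale.Agent.Lib.P038.Sat.I.M2_4.S19
import Vale.Agent.Lib.P038.Sat.I.M2_4.S20
import Vale.Agent.Lib.P038.Sat.I.M2_4.S21
noncomputable section
namespace Vale.Agent.Lib.P038.Sat.I.M2_4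
open Vale.Agent.Lib.P038.Sat
theorem unsat (K : Conf) (hK : Good sh_6_4_t (flM 2) K) : False := by
  have hg := gen_sound (chkParts sh_6_4_t_chk) hK
  have h0 : ∀ g, g < 0 → HL W (loc GT (Val sh_6_4_t K)) (getB H g) := fun g h => absurd h (Nat.not_lt_zero g)
  have h1 := seg_chain (P := fun g => HL W (loc GT (Val sh_6_4_t K)) (getB H g)) h0 (S0.seg hg)
  have h2 := seg_chain (P := fun g => HL W (loc GT (Val sh_6_4_t K)) (getB H g)) h1 (S1.seg hg)
  have h3 := seg_chain (P := fun g => HL W (loc GT (Val sh_6_4_t K)) (getB H g)) h2 (S2.seg hg)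
  have h4 := seg_chain (P := fun g => HL W (loc GT (Val sh_6_4_t K)) (getB H g)) h3 (S3.seg hg)
  have h5 := seg_chain (P := fun g => HL W (loc GT (Val sh_6_4_t K)) (getB H g)) h4 (S4.seg hg)
  have h6 := seg_chain (P := fun g => HL W (loc GT (Val sh_6_4_t K)) (getB H g)) h5 (S5.seg hg)
  have h7 := seg_chain (P := fun g => HL W (loc GT (Val sh_6_4_t K)) (getB H g)) h6 (S6.seg hg)
  have h8 := seg_chain (P := fun g => HL W (loc GT (Val sh_6_4_t K)) (getB H g)) h7 (S7.seg hg)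
  have h9 := seg_chain (P := fun g => HL W (loc GT (Val sh_6_4_t K)) (getB H g)) h8 (S8.seg hg)
  have h10 := seg_chain (P := fun g => HL W (loc GT (Val sh_6_4_t K)) (getB H g)) h9 (S9.seg hg)
  have h11 := seg_chain (P := fun g => HL W (loc GT (Val sh_6_4_t K)) (getB H g)) h10 (S10.seg hg)
  have h12 := seg_chain (P := fun g => HL W (loc GT (Val sh_6_4_t K)) (getB H g)) h11 (S11.seg hg)
  have h13 := seg_chain (P := fun g => HL W (loc GT (Val sh_6_4_t K)) (getB H g)) h12 (S12.seg hg)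
  have h14 := seg_chain (P := fun g => HL W (loc GT (Val sh_6_4_t K)) (getB H g)) h13 (S13.seg hg)
  have h15 := seg_chain (P := fun g => HL W (loc GT (Val sh_6_4_t K)) (getB H g)) h14 (S14.seg hg)
  have h16 := seg_chain (P := fun g => HL W (loc GT (Val sh_6_4_t K)) (getB H g)) h15 (S15.seg hg)
  have h17 := seg_chain (P := fun g => HL W (loc GT (Val sh_6_4_t K)) (getB H g)) h16 (S16.seg hg)
  have h18 := seg_chain (P := fun g => HL W (loc GT (Val sh_6_4_t K)) (getB H g)) h17 (S17.seg hg)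
  have h19 := seg_chain (P := fun g => HL W (loc GT (Val sh_6_4_t K)) (getB H g)) h18 (S18.seg hg)
  have h20 := seg_chain (P := fun g => HL W (loc GT (Val sh_6_4_t K)) (getB H g)) h19 (S19.seg hg)
  have h21 := seg_chain (P := fun g => HL W (loc GT (Val sh_6_4_t K)) (getB H g)) h20 (S20.seg hg)
  have h22 := seg_chain (P := fun g => HL W (loc GT (Val sh_6_4_t K)) (getB H g)) h21 (S21.seg hg)
  have hz := h22 11158 (by decide)
  rw [hlast] at hz
  exact HL_zero _ _ hz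
end Vale.Agent.Lib.P038.Sat.I.M2_4
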